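import Mathlib

namespace Vale.Agent.Lib.P194

open MonoidAlgebra

/-- A ring admitting an injective non-unital ring homomorphism into a Dedekind finite ring is
Dedekind finite (corners of Dedekind finite rings are Dedekind finite). -/
theorem dedekind_of_injective_nonUnital {R A : Type*} [Ring R] [Ring A] (f : R →ₙ+* A)
    (hf : Function.Injective f) [IsDedekindFiniteMonoid A] : IsDedekindFiniteMonoid R := by
  refine ⟨fun {x y} h => ?_⟩
  set e := f 1 with he
  have hr : ∀ z, f z * e = f z := fun z => by rw [he, ← map_mul, mul_one]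
  have hl : ∀ z, e * f z = f z := fun z => by rw [he, ← map_mul, one_mul]
  have hee : e * e = e := hl 1
  have hab : (f x + (1 - e)) * (f y + (1 - e)) = 1 := by
    have h1 : f x * f y = e := by rw [← map_mul, h]
    calc (f x + (1 - e)) * (f y + (1 - e))
        = f x * f y + (f x - f x * e) + (f y - e * f y) + (1 - e - e + e * e) := by noncomm_ring
      _ = 1 := by rw [h1, hr, hl, hee]; noncomm_ring
  have hba := mul_eq_one_symm hab
  have h2 : (f y + (1 - e)) * (f x + (1 - e)) = f (y * x) + (1 - e) := by
    rw [map_mul]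
    calc (f y + (1 - e)) * (f x + (1 - e))
        = f y * f x + (f y - f y * e) + (f x - e * f x) + (1 - e - e + e * e) := by noncomm_ring
      _ = _ := by rw [hr, hl, hee]; noncomm_ring
  rw [h2] at hba
  apply hf
  rw [← he] at *
  have : f (y * x) = e := by
    have h3 : f (y * x) + (1 - e) = e + (1 - e) := by rw [hba]; noncomm_ring
    exact add_right_cancel h3
  rw [this]

/-- Transport along a ring equivalence. -/
theorem dedekind_of_ringEquiv {R A : Type*} [Ring R] [Ring A] (e : R ≃+* A)
    [IsDedekindFiniteMonoid A] : IsDedekindFiniteMonoid R :=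
  IsDedekindFiniteMonoid.of_injective e e.injective

/-- Smaller matrix rings are corners of bigger ones. -/
theorem dedekind_fromBlocks {R : Type*} [Ring R] (n m : ℕ)
    [IsDedekindFiniteMonoid (Matrix (Fin (n + m)) (Fin (n + m)) R)] :
    IsDedekindFiniteMonoid (Matrix (Fin n) (Fin n) R) := by
  classical
  have h1 : IsDedekindFiniteMonoid (Matrix (Fin n ⊕ Fin m) (Fin n ⊕ Fin m) R) :=
    IsDedekindFiniteMonoid.of_injective
      (Matrix.reindexAlgEquiv ℤ R (finSumFinEquiv (m := n) (n := m)))
      (Matrix.reindexAlgEquiv ℤ R (finSumFinEquiv (m := n) (n := m))).injective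
  let f : Matrix (Fin n) (Fin n) R →ₙ+* Matrix (Fin n ⊕ Fin m) (Fin n ⊕ Fin m) R :=
    { toFun := fun X => Matrix.fromBlocks X 0 0 0
      map_zero' := by simp
      map_add' := fun X Y => by
        rw [Matrix.fromBlocks_add]; simp
      map_mul' := fun X Y => by
        rw [Matrix.fromBlocks_multiply]; simp }
  refine dedekind_of_injective_nonUnital f ?_
  intro X Y hXY
  have : Matrix.fromBlocks X 0 0 0 = Matrix.fromBlocks Y 0 0 (0 : Matrix (Fin m) (Fin m) R) := hXY
  exact (Matrix.fromBlocks_inj.mp this).1

end Vale.Agent.Lib.P194
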