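import Mathlib
import Vale.Agent.Lib.P194.Corner

namespace Vale.Agent.Lib.P194

open MonoidAlgebra

section M2

variable {F : Type*} [Field F] {G : Type*} [Group G] {H : Type*} [Group H] [Fintype H]
variable (ρ : H →* Matrix (Fin 2) (Fin 2) F) (c : F)

/-- Orthogonality of matrix coefficients. -/
def Orth : Prop :=
  ∀ i j k l : Fin 2, ∑ h : H, ρ h i j * ρ h⁻¹ k l = if i = l ∧ j = k then c else 0

variable {ρ c}

theorem orth_coef (hc : c ≠ 0) (hO : Orth ρ c) (i j k l : Fin 2) (g : H) :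
    ∑ h : H, (c⁻¹ * ρ h⁻¹ j i) * (c⁻¹ * ρ (h⁻¹ * g)⁻¹ l k) =
      if j = k then c⁻¹ * ρ g⁻¹ l i else 0 := by
  have h1 : ∀ h : H, (c⁻¹ * ρ h⁻¹ j i) * (c⁻¹ * ρ (h⁻¹ * g)⁻¹ l k) =
      ∑ m : Fin 2, c⁻¹ * c⁻¹ * ρ g⁻¹ l m * (ρ h m k * ρ h⁻¹ j i) := by
    intro h
    have h2 : (h⁻¹ * g)⁻¹ = g⁻¹ * h := by group
    rw [h2, map_mul, Matrix.mul_apply, Finset.mul_sum, Finset.mul_sum]
    apply Finset.sum_congr rfl
    intro m _
    ring
  rw [Finset.sum_congr rfl (fun h _ => h1 h), Finset.sum_comm]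
  have h3 : ∀ m : Fin 2, ∑ h : H, c⁻¹ * c⁻¹ * ρ g⁻¹ l m * (ρ h m k * ρ h⁻¹ j i) =
      c⁻¹ * c⁻¹ * ρ g⁻¹ l m * (if m = i ∧ k = j then c else 0) := by
    intro m
    rw [← Finset.mul_sum, hO]
  rw [Finset.sum_congr rfl (fun m _ => h3 m)]
  obtain ⟨w, hw⟩ : ∃ w : Fin 2 → F, ∀ m, (ρ g⁻¹) l m = w m := ⟨_, fun _ => rfl⟩
  simp only [hw]
  by_cases hjk : j = k
  · subst hjk
    rw [Finset.sum_eq_single i]
    · simp only [and_self, if_true]
      field_simp
    · intro m _ hm
      simp [hm]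
    · simp
  · have hkj : ¬ k = j := fun h => hjk h.symm
    simp [hjk, hkj]

/-- The elements of the group algebra of `G × H` which will be the matrix units. -/
noncomputable def unitE (ρ : H →* Matrix (Fin 2) (Fin 2) F) (c : F) (G : Type*) [Group G]
    (i j : Fin 2) : MonoidAlgebra F (G × H) :=
  ∑ h : H, single ((1 : G), h) (c⁻¹ * ρ h⁻¹ j i)

theorem unitE_mul (hc : c ≠ 0) (hO : Orth ρ c) (i j k l : Fin 2) :
    unitE ρ c G i j * unitE ρ c G k l = if j = k then unitE ρ c G i l else 0 := by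
  classical
  unfold unitE
  rw [Finset.sum_mul_sum]
  simp only [single_mul_single, Prod.mk_mul_mk, mul_one]
  -- reindex the inner sum
  have h1 : ∀ h : H, ∑ h' : H, single ((1 : G), h * h') ((c⁻¹ * ρ h⁻¹ j i) * (c⁻¹ * ρ h'⁻¹ l k)) =
      ∑ g : H, single ((1 : G), g) ((c⁻¹ * ρ h⁻¹ j i) * (c⁻¹ * ρ (h⁻¹ * g)⁻¹ l k)) := by
    intro h
    apply Fintype.sum_equiv (Equiv.mulLeft h)
    intro h'
    simp
  simp_rw [h1]
  rw [Finset.sum_comm]
  have h2 : ∀ g : H, ∑ h : H, single ((1 : G), g) ((c⁻¹ * ρ h⁻¹ j i) * (c⁻¹ * ρ (h⁻¹ * g)⁻¹ l k)) =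
      single ((1 : G), g) (∑ h : H, (c⁻¹ * ρ h⁻¹ j i) * (c⁻¹ * ρ (h⁻¹ * g)⁻¹ l k)) :=
    fun g => (map_sum (singleAddHom ((1 : G), g)) _ _).symm
  simp_rw [h2, orth_coef hc hO]
  by_cases hjk : j = k
  · simp [hjk]
  · simp [hjk]

/-- The inclusion of `F[G]` into `F[G × H]`. -/
noncomputable def iotaG (F : Type*) [Field F] (G H : Type*) [Group G] [Group H] :
    MonoidAlgebra F G →+* MonoidAlgebra F (G × H) :=
  mapDomainRingHom F (MonoidHom.inl G H)

theorem iotaG_single (g : G) (a : F) :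
    iotaG F G H (single g a) = single (g, (1 : H)) a := by
  simp [iotaG]

theorem iotaG_commute_unitE (r : MonoidAlgebra F G) (i j : Fin 2) :
    iotaG F G H r * unitE ρ c G i j = unitE ρ c G i j * iotaG F G H r := by
  induction r using MonoidAlgebra.induction_linear with
  | zero => simp
  | add x y hx hy => rw [map_add, add_mul, mul_add, hx, hy]
  | single g a =>
    rw [iotaG_single]
    unfold unitE
    rw [Finset.mul_sum, Finset.sum_mul]
    apply Finset.sum_congr rfl
    intro h _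
    simp [mul_comm]

/-- The homomorphism from `G × H` to matrices over `F[G]`. -/
noncomputable def piHom (ρ : H →* Matrix (Fin 2) (Fin 2) F) (G : Type*) [Group G] :
    (G × H) →* Matrix (Fin 2) (Fin 2) (MonoidAlgebra F G) where
  toFun := fun p => Matrix.of fun a b => single p.1 (ρ p.2 a b)
  map_one' := by
    ext a b : 1
    simp only [Prod.fst_one, Prod.snd_one, map_one, Matrix.of_apply]
    by_cases hab : a = b
    · subst hab; simp [MonoidAlgebra.one_def]
    · simp [hab]
  map_mul' := by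
    rintro ⟨g, h⟩ ⟨g', h'⟩
    ext a b : 1
    simp only [Prod.mk_mul_mk, map_mul, Matrix.of_apply, Matrix.mul_apply, single_mul_single]
    exact map_sum (singleAddHom (g * g')) _ _

/-- The algebra homomorphism from `F[G × H]` to matrices over `F[G]`. -/
noncomputable def piAlg (ρ : H →* Matrix (Fin 2) (Fin 2) F) (G : Type*) [Group G] :
    MonoidAlgebra F (G × H) →ₐ[F] Matrix (Fin 2) (Fin 2) (MonoidAlgebra F G) :=
  MonoidAlgebra.lift F _ _ (piHom ρ G)

theorem piAlg_single (p : G × H) (a : F) (i j : Fin 2) :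
    piAlg ρ G (single p a) i j = single p.1 (a * ρ p.2 i j) := by
  unfold piAlg
  rw [MonoidAlgebra.lift_single]
  simp [piHom]

theorem piAlg_iotaG (r : MonoidAlgebra F G) :
    piAlg ρ G (iotaG F G H r) = Matrix.diagonal fun _ => r := by
  induction r using MonoidAlgebra.induction_linear with
  | zero => simp
  | add x y hx hy =>
    rw [map_add, map_add, hx, hy]
    ext a b : 1
    by_cases hab : a = b
    · subst hab; simp
    · simp [hab]
  | single g a =>
    rw [iotaG_single]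
    ext i j : 1
    rw [piAlg_single]
    by_cases hij : i = j
    · subst hij; simp
    · simp [hij]

theorem piAlg_unitE (hc : c ≠ 0) (hO : Orth ρ c) (i j : Fin 2) :
    piAlg ρ G (unitE ρ c G i j) = Matrix.single i j 1 := by
  ext a b : 1
  unfold unitE
  rw [map_sum, Matrix.sum_apply]
  simp_rw [piAlg_single]
  have h0 : ∑ x : H, single (1 : G) (c⁻¹ * ρ x⁻¹ j i * ρ x a b) =
      single (1 : G) (∑ x : H, c⁻¹ * ρ x⁻¹ j i * ρ x a b) :=
    (map_sum (singleAddHom (1 : G)) _ _).symm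
  have h1 : ∑ h : H, c⁻¹ * ρ h⁻¹ j i * ρ h a b = if i = a ∧ j = b then 1 else 0 := by
    have h2 : ∀ h : H, c⁻¹ * ρ h⁻¹ j i * ρ h a b = c⁻¹ * (ρ h a b * ρ h⁻¹ j i) := by
      intro h; ring
    simp_rw [h2]
    rw [← Finset.mul_sum, hO]
    by_cases hai : a = i
    · by_cases hbj : b = j
      · subst hai hbj; simp [hc]
      · have : ¬ j = b := fun h => hbj h.symm
        simp [hbj, this]
    · have : ¬ i = a := fun h => hai h.symm
      simp [hai, this]
  rw [h0, h1]
  by_cases hi : i = a ∧ j = b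
  · obtain ⟨rfl, rfl⟩ := hi
    simp [MonoidAlgebra.one_def]
  · rw [if_neg hi, single_zero]
    symm
    rw [Matrix.single_apply_of_ne]
    intro h
    exact hi ⟨h.1.symm ▸ rfl, h.2.symm ▸ rfl⟩

/-- Abstract multiplicativity of the matrix-unit map. -/
theorem matrix_unit_mul {B A : Type*} [Ring B] [Ring A] (ι : B →+* A) (E : Fin 2 → Fin 2 → A)
    (hcomm : ∀ r i j, ι r * E i j = E i j * ι r)
    (hE : ∀ i j k l, E i j * E k l = if j = k then E i l else 0)
    (X Y : Matrix (Fin 2) (Fin 2) B) :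
    ∑ i, ∑ j, ι ((X * Y) i j) * E i j =
      (∑ i, ∑ j, ι (X i j) * E i j) * ∑ i, ∑ j, ι (Y i j) * E i j := by
  have h1 : ∀ (a b : B) (i j k l : Fin 2),
      ι a * E i j * (ι b * E k l) = if j = k then ι a * ι b * E i l else 0 := by
    intro a b i j k l
    have h2 : ι a * E i j * (ι b * E k l) = ι a * ι b * (E i j * E k l) := by
      calc ι a * E i j * (ι b * E k l)
          = ι a * (E i j * ι b) * E k l := by noncomm_ring
        _ = ι a * (ι b * E i j) * E k l := by rw [hcomm]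
        _ = _ := by noncomm_ring
    rw [h2, hE]
    by_cases hjk : j = k
    · simp [hjk]
    · simp [hjk]
  simp only [Fin.sum_univ_two, Matrix.mul_apply, map_add, map_mul, add_mul, mul_add, h1]
  simp
  abel

/-- The (non unital) embedding of the matrix ring in the group algebra. -/
noncomputable def cornerHom (hc : c ≠ 0) (hO : Orth ρ c) :
    Matrix (Fin 2) (Fin 2) (MonoidAlgebra F G) →ₙ+* MonoidAlgebra F (G × H) where
  toFun := fun X => ∑ i, ∑ j, iotaG F G H (X i j) * unitE ρ c G i j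
  map_zero' := by simp
  map_add' := fun X Y => by
    simp only [Matrix.add_apply, map_add, add_mul, Finset.sum_add_distrib]
  map_mul' := fun X Y =>
    matrix_unit_mul (iotaG F G H) (unitE ρ c G) (iotaG_commute_unitE) (unitE_mul hc hO) X Y

theorem piAlg_cornerHom (hc : c ≠ 0) (hO : Orth ρ c)
    (X : Matrix (Fin 2) (Fin 2) (MonoidAlgebra F G)) :
    piAlg ρ G (cornerHom hc hO X) = X := by
  have h1 : cornerHom (G := G) hc hO X = ∑ i, ∑ j, iotaG F G H (X i j) * unitE ρ c G i j := rfl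
  rw [h1]
  simp only [map_sum, map_mul, piAlg_iotaG, piAlg_unitE hc hO]
  ext a b : 1
  simp only [Matrix.sum_apply, Matrix.diagonal_mul]
  simp only [Matrix.single_apply, ite_and, mul_ite, mul_one, mul_zero]
  simp

theorem cornerHom_injective (hc : c ≠ 0) (hO : Orth ρ c) :
    Function.Injective (cornerHom (G := G) hc hO) := by
  intro X Y hXY
  have := congrArg (piAlg ρ G) hXY
  rwa [piAlg_cornerHom, piAlg_cornerHom] at this

/-- Matrix rings over the corner: `M_N(M_2(F[G]))` embeds as a corner of `M_N(F[G × H])`. -/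
theorem dedekind_matrix_two (hc : c ≠ 0) (hO : Orth ρ c) (N : Type*) [Fintype N] [DecidableEq N]
    [IsDedekindFiniteMonoid (Matrix N N (MonoidAlgebra F (G × H)))] :
    IsDedekindFiniteMonoid (Matrix N N (Matrix (Fin 2) (Fin 2) (MonoidAlgebra F G))) := by
  let f : Matrix N N (Matrix (Fin 2) (Fin 2) (MonoidAlgebra F G)) →ₙ+*
      Matrix N N (MonoidAlgebra F (G × H)) :=
    { toFun := fun X => X.map (cornerHom hc hO)
      map_zero' := by
        ext a b : 1; simp
      map_add' := fun X Y => by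
        ext a b : 1; simp
      map_mul' := fun X Y => Matrix.map_mul }
  refine dedekind_of_injective_nonUnital f ?_
  intro X Y hXY
  exact Matrix.map_injective (cornerHom_injective hc hO) hXY

end M2

end Vale.Agent.Lib.P194
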