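import Mathlib
import Vale.Agent.Lib.P194.MatrixUnits

namespace Vale.Agent.Lib.P194

open MonoidAlgebra

/-- The reflection representation of the dihedral group of order `8`. -/
def rho4 : DihedralGroup 4 → Matrix (Fin 2) (Fin 2) ℤ
  | .r i => !![0, -1; 1, 0] ^ (ZMod.val i)
  | .sr i => !![1, 0; 0, -1] * !![0, -1; 1, 0] ^ (ZMod.val i)

/-- The two dimensional representation of the dihedral group of order `6`. -/
def rho3 : DihedralGroup 3 → Matrix (Fin 2) (Fin 2) ℤ
  | .r i => !![0, -1; 1, -1] ^ (ZMod.val i)
  | .sr i => !![0, 1; 1, 0] * !![0, -1; 1, -1] ^ (ZMod.val i)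

theorem rho4_one : rho4 1 = 1 := by decide +kernel
theorem rho3_one : rho3 1 = 1 := by decide +kernel
theorem rho4_mul : ∀ a b, rho4 (a * b) = rho4 a * rho4 b := by decide +kernel
theorem rho3_mul : ∀ a b, rho3 (a * b) = rho3 a * rho3 b := by decide +kernel
theorem rho4_orth : ∀ i j k l : Fin 2,
    ∑ h : DihedralGroup 4, rho4 h i j * rho4 h⁻¹ k l = if i = l ∧ j = k then 4 else 0 := by
  decide +kernel
theorem rho3_orth : ∀ i j k l : Fin 2,
    ∑ h : DihedralGroup 3, rho3 h i j * rho3 h⁻¹ k l = if i = l ∧ j = k then 3 else 0 := by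
  decide +kernel

/-- The reduction of `rho4` to a field. -/
def rho4F (F : Type*) [Field F] : DihedralGroup 4 →* Matrix (Fin 2) (Fin 2) F where
  toFun := fun h => (rho4 h).map (Int.castRingHom F)
  map_one' := by rw [rho4_one]; simp
  map_mul' := fun a b => by rw [rho4_mul, Matrix.map_mul]

/-- The reduction of `rho3` to a field. -/
def rho3F (F : Type*) [Field F] : DihedralGroup 3 →* Matrix (Fin 2) (Fin 2) F where
  toFun := fun h => (rho3 h).map (Int.castRingHom F)
  map_one' := by rw [rho3_one]; simp
  map_mul' := fun a b => by rw [rho3_mul, Matrix.map_mul]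

theorem rho4F_orth (F : Type*) [Field F] : Orth (rho4F F) (4 : F) := by
  intro i j k l
  have h := congrArg (Int.castRingHom F) (rho4_orth i j k l)
  rw [map_sum] at h
  simp only [map_mul] at h
  simp only [rho4F, MonoidHom.coe_mk, OneHom.coe_mk, Matrix.map_apply]
  rw [h]
  split_ifs <;> simp

theorem rho3F_orth (F : Type*) [Field F] : Orth (rho3F F) (3 : F) := by
  intro i j k l
  have h := congrArg (Int.castRingHom F) (rho3_orth i j k l)
  rw [map_sum] at h
  simp only [map_mul] at h
  simp only [rho3F, MonoidHom.coe_mk, OneHom.coe_mk, Matrix.map_apply]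
  rw [h]
  split_ifs <;> simp

/-- For every field there is a finite group with a two dimensional representation
satisfying the orthogonality relations with invertible constant. -/
theorem exists_rep (F : Type*) [Field F] : ∃ (H : Type) (_ : Group H) (_ : Fintype H)
    (ρ : H →* Matrix (Fin 2) (Fin 2) F) (c : F), c ≠ 0 ∧ Orth ρ c := by
  by_cases h2 : (2 : F) = 0
  · refine ⟨DihedralGroup 3, inferInstance, inferInstance, rho3F F, 3, ?_, rho3F_orth F⟩
    have : (3 : F) = 1 := by
      have : (3 : F) = 2 + 1 := by norm_num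
      rw [this, h2, zero_add]
    rw [this]
    exact one_ne_zero
  · refine ⟨DihedralGroup 4, inferInstance, inferInstance, rho4F F, 4, ?_, rho4F_orth F⟩
    have : (4 : F) = 2 * 2 := by norm_num
    rw [this]
    exact mul_ne_zero h2 h2

end Vale.Agent.Lib.P194
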