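import Mathlib
import Vale.Agent.Lib.P194.Reps

namespace Vale.Agent.Lib.P194

open MonoidAlgebra

universe u

/-- Direct finiteness of `F[G × F']` for all finite groups `F'`. -/
def Hyp (F : Type*) [Field F] (G : Type u) [Group G] : Prop :=
  ∀ (F' : Type) [Group F'] [Finite F'], IsDedekindFiniteMonoid (MonoidAlgebra F (G × F'))

theorem Hyp.prod {F : Type*} [Field F] {G : Type u} [Group G] (h : Hyp F G)
    (H : Type) [Group H] [Finite H] : Hyp F (G × H) := by
  intro F' _ _
  have := h (H × F')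
  let e : (G × H) × F' ≃* G × (H × F') := MulEquiv.prodAssoc
  let φ : MonoidAlgebra F ((G × H) × F') ≃+* MonoidAlgebra F (G × (H × F')) :=
    mapDomainRingEquiv F e
  exact IsDedekindFiniteMonoid.of_injective φ φ.injective

theorem Hyp.self {F : Type*} [Field F] {G : Type u} [Group G] (h : Hyp F G) :
    IsDedekindFiniteMonoid (MonoidAlgebra F G) := by
  have := h PUnit
  let φ : MonoidAlgebra F G →+* MonoidAlgebra F (G × PUnit) :=
    mapDomainRingHom F (MonoidHom.inl G PUnit)
  refine IsDedekindFiniteMonoid.of_injective φ ?_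
  exact mapDomain_injective (fun a b hab => (Prod.ext_iff.mp hab).1)

theorem dedekind_matrix_one (R : Type*) [Ring R] [IsDedekindFiniteMonoid R] :
    IsDedekindFiniteMonoid (Matrix (Fin 1) (Fin 1) R) := by
  let e : Matrix (Fin 1) (Fin 1) R ≃+* R := Matrix.uniqueRingEquiv
  exact IsDedekindFiniteMonoid.of_injective e e.injective

/-- Matrices of size a power of two. -/
theorem stable_two_pow (F : Type*) [Field F] (j : ℕ) : ∀ (G : Type u) [Group G], Hyp F G →
    IsDedekindFiniteMonoid (Matrix (Fin (2 ^ j)) (Fin (2 ^ j)) (MonoidAlgebra F G)) := by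
  induction j with
  | zero =>
    intro G _ h
    have := h.self
    rw [Nat.pow_zero]
    exact dedekind_matrix_one _
  | succ j ih =>
    intro G _ h
    obtain ⟨H, _, _, ρ, c, hc, hO⟩ := exists_rep F
    have := ih (G × H) (h.prod H)
    have h2 : IsDedekindFiniteMonoid
        (Matrix (Fin (2 ^ j)) (Fin (2 ^ j)) (Matrix (Fin 2) (Fin 2) (MonoidAlgebra F G))) :=
      dedekind_matrix_two (G := G) hc hO (Fin (2 ^ j))
    let e1 : Matrix (Fin (2 ^ j)) (Fin (2 ^ j)) (Matrix (Fin 2) (Fin 2) (MonoidAlgebra F G)) ≃+*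
        Matrix (Fin (2 ^ j) × Fin 2) (Fin (2 ^ j) × Fin 2) (MonoidAlgebra F G) :=
      Matrix.compRingEquiv _ _ _
    let e2 : Matrix (Fin (2 ^ j) × Fin 2) (Fin (2 ^ j) × Fin 2) (MonoidAlgebra F G) ≃+*
        Matrix (Fin (2 ^ (j + 1))) (Fin (2 ^ (j + 1))) (MonoidAlgebra F G) :=
      (Matrix.reindexAlgEquiv ℤ (MonoidAlgebra F G)
        ((finProdFinEquiv (m := 2 ^ j) (n := 2)).trans (finCongr (pow_succ 2 j).symm))).toRingEquiv
    let e : Matrix (Fin (2 ^ (j + 1))) (Fin (2 ^ (j + 1))) (MonoidAlgebra F G) ≃+*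
        Matrix (Fin (2 ^ j)) (Fin (2 ^ j)) (Matrix (Fin 2) (Fin 2) (MonoidAlgebra F G)) :=
      (e1.trans e2).symm
    exact IsDedekindFiniteMonoid.of_injective e e.injective

/-- Stable finiteness over the same field. -/
theorem stable_of_hyp {F : Type*} [Field F] {G : Type u} [Group G] (h : Hyp F G) (n : ℕ) :
    IsDedekindFiniteMonoid (Matrix (Fin n) (Fin n) (MonoidAlgebra F G)) := by
  have hlt : n < 2 ^ n := Nat.lt_two_pow_self
  obtain ⟨m, hm⟩ : ∃ m, 2 ^ n = n + m := ⟨2 ^ n - n, by omega⟩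
  have h0 := stable_two_pow F n G h
  have h1 : IsDedekindFiniteMonoid (Matrix (Fin (n + m)) (Fin (n + m)) (MonoidAlgebra F G)) := by
    rw [← hm]; exact h0
  exact dedekind_fromBlocks n m

end Vale.Agent.Lib.P194
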