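import Mathlib
import Vale.Agent.Lib.P194.Stable

namespace Vale.Agent.Lib.P194

open MonoidAlgebra

universe u v

section FiniteExt

variable {F L : Type*} [Field F] [Field L] [Algebra F L] {G : Type*} [Group G]
variable {d : ℕ} (bas : Module.Basis (Fin d) F L)

theorem regRep_comm (x : L) (g : G) :
    Commute (((algebraMap F (MonoidAlgebra F G)).mapMatrix.comp
        (Algebra.leftMulMatrix bas).toRingHom) x)
      (((Matrix.scalar (Fin d)).toMonoidHom.comp (MonoidAlgebra.of F G)) g) := by
  show _ * _ = _ * _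
  ext i j : 1
  simp [Matrix.mul_apply, Matrix.scalar_apply, Matrix.diagonal_apply]

/-- The regular representation of a finite extension induces an embedding
of the group algebra in matrices over the group algebra of the base. -/
noncomputable def regRep : MonoidAlgebra L G →+* Matrix (Fin d) (Fin d) (MonoidAlgebra F G) :=
  liftNCRingHom
    (((algebraMap F (MonoidAlgebra F G)).mapMatrix).comp (Algebra.leftMulMatrix bas).toRingHom)
    ((Matrix.scalar (Fin d)).toMonoidHom.comp (MonoidAlgebra.of F G))
    (regRep_comm bas)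

theorem regRep_coeff (x : MonoidAlgebra L G) (g : G) (i j : Fin d) :
    ((regRep bas x) i j).coeff g = Algebra.leftMulMatrix bas (x.coeff g) i j := by
  classical
  induction x using MonoidAlgebra.induction_linear with
  | zero => simp
  | add x y hx hy => simp [map_add, hx, hy]
  | single h c =>
    have h1 : regRep bas (single h c) i j =
        single h (Algebra.leftMulMatrix bas c i j) := by
      unfold regRep
      rw [liftNCRingHom_single]
      simp [Matrix.scalar_apply]
    rw [h1]
    by_cases hg : h = g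
    · subst hg; simp
    · simp [hg]

theorem regRep_injective : Function.Injective (regRep (G := G) bas) := by
  intro x y hxy
  ext g
  apply Algebra.leftMulMatrix_injective bas
  ext i j
  rw [← regRep_coeff, ← regRep_coeff, hxy]

include bas in
/-- Stable finiteness passes to finite extensions of the coefficient field. -/
theorem dedekind_extension (n : ℕ)
    [IsDedekindFiniteMonoid (Matrix (Fin (n * d)) (Fin (n * d)) (MonoidAlgebra F G))] :
    IsDedekindFiniteMonoid (Matrix (Fin n) (Fin n) (MonoidAlgebra L G)) := by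
  let e1 : Matrix (Fin n) (Fin n) (Matrix (Fin d) (Fin d) (MonoidAlgebra F G)) ≃+*
      Matrix (Fin n × Fin d) (Fin n × Fin d) (MonoidAlgebra F G) :=
    Matrix.compRingEquiv _ _ _
  let e2 : Matrix (Fin n × Fin d) (Fin n × Fin d) (MonoidAlgebra F G) ≃+*
      Matrix (Fin (n * d)) (Fin (n * d)) (MonoidAlgebra F G) :=
    (Matrix.reindexAlgEquiv ℤ (MonoidAlgebra F G) (finProdFinEquiv (m := n) (n := d))).toRingEquiv
  let f : Matrix (Fin n) (Fin n) (MonoidAlgebra L G) →+*
      Matrix (Fin n) (Fin n) (Matrix (Fin d) (Fin d) (MonoidAlgebra F G)) :=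
    (regRep bas).mapMatrix
  refine IsDedekindFiniteMonoid.of_injective (((e1.trans e2) : _ ≃+* _).toRingHom.comp f) ?_
  intro X Y hXY
  have h1 : f X = f Y := (e1.trans e2).injective hXY
  exact Matrix.map_injective (regRep_injective bas) h1

end FiniteExt

section Spread

variable {G : Type u} [Group G] {n : ℕ}

/-- Core of the specialization argument. -/
theorem spread_core {A K L : Type*} [CommRing A] [Field K] [CommRing L] [Nontrivial L]
    (ι : A →+* K) (hι : Function.Injective ι) (π : A →+* L)
    [IsDedekindFiniteMonoid (Matrix (Fin n) (Fin n) (MonoidAlgebra L G))]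
    (X Y : Matrix (Fin n) (Fin n) (MonoidAlgebra K G)) (hXY : X * Y = 1)
    (a b : Fin n) (g : G) (u : A)
    (hne : ((Y * X) a b).coeff g - ((1 : Matrix (Fin n) (Fin n) (MonoidAlgebra K G)) a b).coeff g ≠ 0)
    (hu : ι u =
      (((Y * X) a b).coeff g - ((1 : Matrix (Fin n) (Fin n) (MonoidAlgebra K G)) a b).coeff g)⁻¹)
    (hX : ∀ i j h, (X i j).coeff h ∈ Set.range ι) (hY : ∀ i j h, (Y i j).coeff h ∈ Set.range ι) :
    False := by
  classical
  let Φ : MonoidAlgebra A G →+* MonoidAlgebra K G := mapRingHom G ι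
  have hΦ : Function.Injective Φ := by
    intro x y hxy
    ext h
    apply hι
    have := congrArg (fun z => z.coeff h) hxy
    simpa [Φ, coeff_mapRingHom] using this
  have hrange : ∀ z : MonoidAlgebra K G, (∀ h, z.coeff h ∈ Set.range ι) → ∃ y, Φ y = z := by
    intro z hz
    have h1 : z ∈ Set.range (map (M := G) (ι : A →+ K)) := by
      rw [range_map]
      exact hz
    obtain ⟨y, hy⟩ := h1
    exact ⟨y, hy⟩
  choose X' hX' using fun i j => hrange (X i j) (hX i j)
  choose Y' hY' using fun i j => hrange (Y i j) (hY i j)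
  let XA : Matrix (Fin n) (Fin n) (MonoidAlgebra A G) := Matrix.of X'
  let YA : Matrix (Fin n) (Fin n) (MonoidAlgebra A G) := Matrix.of Y'
  let Φn : Matrix (Fin n) (Fin n) (MonoidAlgebra A G) →+*
      Matrix (Fin n) (Fin n) (MonoidAlgebra K G) := Φ.mapMatrix
  have hΦn : Function.Injective Φn := fun x y hxy => Matrix.map_injective hΦ hxy
  have hXA : Φn XA = X := by
    ext i j : 1
    exact hX' i j
  have hYA : Φn YA = Y := by
    ext i j : 1
    exact hY' i j
  have hmul : XA * YA = 1 := by
    apply hΦn
    rw [map_mul, map_one, hXA, hYA, hXY]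
  let Ψ : MonoidAlgebra A G →+* MonoidAlgebra L G := mapRingHom G π
  let Ψn : Matrix (Fin n) (Fin n) (MonoidAlgebra A G) →+*
      Matrix (Fin n) (Fin n) (MonoidAlgebra L G) := Ψ.mapMatrix
  have hL : Ψn XA * Ψn YA = 1 := by rw [← map_mul, hmul, map_one]
  have hL' : Ψn YA * Ψn XA = 1 := mul_eq_one_symm hL
  have hL'' : Ψn (YA * XA) = Ψn 1 := by rw [map_mul, hL', map_one]
  -- the lifted coefficient
  set cA : A := ((YA * XA) a b).coeff g - ((1 : Matrix (Fin n) (Fin n) (MonoidAlgebra A G)) a b).coeff g
    with hcA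
  have hcι : ι cA = ((Y * X) a b).coeff g -
      ((1 : Matrix (Fin n) (Fin n) (MonoidAlgebra K G)) a b).coeff g := by
    have h1 : ∀ Z : Matrix (Fin n) (Fin n) (MonoidAlgebra A G),
        ι ((Z a b).coeff g) = ((Φn Z) a b).coeff g := by
      intro Z
      show _ = (Φ (Z a b)).coeff g
      rw [coeff_mapRingHom]
    rw [hcA, map_sub, h1, h1, map_mul, hXA, hYA, map_one]
  have hcπ : π cA = 0 := by
    have h1 : ∀ Z : Matrix (Fin n) (Fin n) (MonoidAlgebra A G),
        π ((Z a b).coeff g) = ((Ψn Z) a b).coeff g := by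
      intro Z
      show _ = (Ψ (Z a b)).coeff g
      rw [coeff_mapRingHom]
    rw [hcA, map_sub, h1, h1, hL'', sub_self]
  have hunit : cA * u = 1 := by
    apply hι
    rw [map_mul, hcι, hu, map_one, mul_inv_cancel₀ hne]
  have : π (cA * u) = 1 := by rw [hunit, map_one]
  rw [map_mul, hcπ, zero_mul] at this
  exact zero_ne_one this

/-- Specialization: direct finiteness of matrices over group algebras over all finite
fields of characteristic `p` implies it for all fields of characteristic `p`. -/
theorem spread (p : ℕ) [Fact p.Prime] {K : Type v} [Field K] [Algebra (ZMod p) K]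
    (hL : ∀ (L : Type v) [Field L] [Algebra (ZMod p) L] [Module.Finite (ZMod p) L],
      IsDedekindFiniteMonoid (Matrix (Fin n) (Fin n) (MonoidAlgebra L G))) :
    IsDedekindFiniteMonoid (Matrix (Fin n) (Fin n) (MonoidAlgebra K G)) := by
  classical
  refine ⟨fun {X Y} hXY => ?_⟩
  by_contra hne
  obtain ⟨a, b, g, hc⟩ : ∃ a b g, ((Y * X) a b).coeff g -
      ((1 : Matrix (Fin n) (Fin n) (MonoidAlgebra K G)) a b).coeff g ≠ 0 := by
    by_contra hall
    push Not at hall
    apply hne
    ext a b g
    exact sub_eq_zero.mp (hall a b g)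
  set c : K := ((Y * X) a b).coeff g -
      ((1 : Matrix (Fin n) (Fin n) (MonoidAlgebra K G)) a b).coeff g with hcdef
  let T : Finset K := (Finset.univ.biUnion fun i => Finset.univ.biUnion fun j =>
    (X i j).coeff.frange ∪ (Y i j).coeff.frange) ∪ {c⁻¹}
  let R' : Subalgebra (ZMod p) K := Algebra.adjoin (ZMod p) (T : Set K)
  have hmem : ∀ z ∈ T, z ∈ R' := fun z hz => Algebra.subset_adjoin hz
  have hfg : R'.FG := Subalgebra.fg_adjoin_finset T
  have hft : Algebra.FiniteType (ZMod p) R' := (Subalgebra.fg_iff_finiteType R').mp hfg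
  obtain ⟨m, hm⟩ := Ideal.exists_maximal R'
  let _ : Field (R' ⧸ m) := Ideal.Quotient.field m
  have hft2 : Algebra.FiniteType (ZMod p) (R' ⧸ m) :=
    Algebra.FiniteType.of_surjective (Ideal.Quotient.mkₐ (ZMod p) m)
      (Ideal.Quotient.mkₐ_surjective (ZMod p) m)
  have hfin : Module.Finite (ZMod p) (R' ⧸ m) := finite_of_finite_type_of_isJacobsonRing _ _
  have hDF := hL (R' ⧸ m)
  let ι : R' →+* K := R'.val.toRingHom
  have hι : Function.Injective ι := Subtype.val_injective
  have hrange : ∀ z : K, (z = 0 ∨ z ∈ T) → z ∈ Set.range ι := by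
    intro z hz
    rcases hz with rfl | hz
    · exact ⟨0, map_zero _⟩
    · exact ⟨⟨z, hmem z hz⟩, rfl⟩
  refine spread_core (n := n) (G := G) ι hι (Ideal.Quotient.mk m) X Y hXY a b g
    ⟨c⁻¹, hmem _ (by simp [T])⟩ hc rfl ?_ ?_
  · intro i j h
    apply hrange
    by_cases h0 : (X i j).coeff h = 0
    · exact Or.inl h0
    · right
      simp only [T, Finset.mem_union, Finset.mem_biUnion, Finset.mem_univ, true_and]
      left
      refine ⟨i, j, Or.inl ?_⟩
      rw [Finsupp.mem_frange]
      exact ⟨h0, h, rfl⟩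
  · intro i j h
    apply hrange
    by_cases h0 : (Y i j).coeff h = 0
    · exact Or.inl h0
    · right
      simp only [T, Finset.mem_union, Finset.mem_biUnion, Finset.mem_univ, true_and]
      left
      refine ⟨i, j, Or.inr ?_⟩
      rw [Finsupp.mem_frange]
      exact ⟨h0, h, rfl⟩

end Spread

end Vale.Agent.Lib.P194
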