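import Mathlib
import Vale.Agent.Lib.P194.Spread

namespace Vale.Agent.Lib.P194

open MonoidAlgebra

universe u v

/-- Direct finiteness over the prime field for all products with finite groups implies
stable finiteness over every field of the same characteristic. -/
theorem stable_of_prime_field (p : ℕ) [Fact p.Prime] {G : Type u} [Group G]
    (h : Hyp (ZMod p) G) (K : Type v) [Field K] [CharP K p] (n : ℕ) :
    IsDedekindFiniteMonoid (Matrix (Fin n) (Fin n) (MonoidAlgebra K G)) := by
  letI : Algebra (ZMod p) K := ZMod.algebra K p
  refine spread p ?_
  intro L _ _ _
  let bas := Module.finBasis (ZMod p) L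
  have := stable_of_hyp h (n * Module.finrank (ZMod p) L)
  exact dedekind_extension bas n

end Vale.Agent.Lib.P194
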